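import Vale.Agent.P207.H686.ZD

/-!
# P207: the abstract zoom data with general order `k0` (`k0 = 4` for quarter pinching)

`X` = frames over the unit tangent bundle, `E` = the unstable space, `W` = the space of (symmetric
bilinear) forms `s` on `E`, `N v x s = ⟨N_v(x), s⟩` the stable bundle in the affine chart of the
leaf of `v` (on the unit disc), paired with `s`. No topology on `X`: convergence means uniform
convergence of `N` on the unit disc.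
-/

set_option linter.all false

open Metric Set Filter Topology
open scoped ContDiff

namespace Vale.Agent.P207.H686

/-- the zoom data -/
structure ZDk (k0 : ℕ) (E W X : Type*) [NormedAddCommGroup E] [NormedSpace ℝ E] [NormedAddCommGroup W]
    [NormedSpace ℝ W] where
  /-- the tensor in the affine charts, paired with forms -/
  N : X → E → W →L[ℝ] ℝ
  K : ℝ
  bd : ∀ v, ∀ x ∈ ball (0 : E) 1, ‖N v x‖ ≤ K
  cont : ∀ v, ContinuousOn (N v) (ball 0 1)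
  lam : ℝ
  lam0 : 0 < lam
  lam1 : lam < 1
  Lam : ℝ
  Lam1 : 1 ≤ Lam
  k0_pos : 1 ≤ k0
  /-- `2 b < k0 a` -/
  gap : lam ^ k0 * Lam < 1
  mu : ℝ
  mu1 : 1 ≤ mu
  M : ℕ → ℝ
  /-- one step of the flow (a fixed large time): `A` on `E`, `L` on forms -/
  St : X → (E ≃L[ℝ] E) → (W ≃L[ℝ] W) → X → Prop
  St_A : ∀ {v A L v'}, St v A L v' → ∀ x, ‖A.symm x‖ ≤ lam * ‖x‖
  St_A' : ∀ {v A L v'}, St v A L v' → ∀ x, ‖A x‖ ≤ mu * ‖x‖
  St_L : ∀ {v A L v'}, St v A L v' → ∀ s, ‖L.symm s‖ ≤ Lam * ‖s‖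
  /-- forms are pushed forward by `s (A⁻¹ ·, A⁻¹ ·)` -/
  St_L' : ∀ {v A L v'}, St v A L v' → ∀ s, ‖L s‖ ≤ lam ^ 2 * ‖s‖
  St_N : ∀ {v A L v'}, St v A L v' → ∃ e : E → W →L[ℝ] ℝ, ContDiffOn ℝ ∞ e (ball 0 1) ∧
    (∀ k, ∀ x ∈ ball (0 : E) 1, ‖iteratedFDeriv ℝ k e x‖ ≤ M k) ∧
    ∀ x ∈ ball (0 : E) 1, ∀ s, N v' x (L s) = N v (A.symm x) s + e x (L s)
  /-- every frame has a successor and a predecessor -/
  St_next : ∀ v, ∃ A L v', St v A L v'
  St_prev : ∀ v', ∃ v A L, St v A L v'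
  /-- change of base point (to the point `p` of the disc) and of frame on one leaf -/
  BC : X → E → (E ≃L[ℝ] E) → (W ≃L[ℝ] W) → X → Prop
  Kb : ℝ
  Kb1 : 1 ≤ Kb
  BC_p : ∀ {v p R S v'}, BC v p R S v' → ‖p‖ < 1
  BC_R : ∀ {v p R S v'}, BC v p R S v' → (∀ x, ‖R x‖ ≤ Kb * ‖x‖) ∧ ∀ x, ‖R.symm x‖ ≤ Kb * ‖x‖
  BC_S : ∀ {v p R S v'}, BC v p R S v' → (∀ s, ‖S s‖ ≤ Kb * ‖s‖) ∧ ∀ s, ‖S.symm s‖ ≤ Kb * ‖s‖
  BC_N : ∀ {v p R S v'}, BC v p R S v' → ∃ e : E → W →L[ℝ] ℝ,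
    ContDiffOn ℝ ∞ e {x | x ∈ ball (0 : E) 1 ∧ p + R.symm x ∈ ball (0 : E) 1} ∧
    (∀ k, ∀ x ∈ ball (0 : E) 1, p + R.symm x ∈ ball (0 : E) 1 → ‖iteratedFDeriv ℝ k e x‖ ≤ M k) ∧
    ∀ x ∈ ball (0 : E) 1, p + R.symm x ∈ ball (0 : E) 1 → ∀ s,
      N v' x (S s) = N v (p + R.symm x) s + e x (S s)
  /-- base changes to every point of the disc exist -/
  BC_ex : ∀ v, ∀ p ∈ ball (0 : E) 1, ∃ R S v', BC v p R S v'
  /-- compactness -/
  cpt : ∀ v : ℕ → X, ∃ w, ∃ ψ : ℕ → ℕ, StrictMono ψ ∧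
    TendstoUniformlyOn (fun n => N (v (ψ n))) (N w) atTop (ball 0 1)
  /-- the images of an open piece of a leaf become dense -/
  dense : ∀ (v : X) (O : Set E), IsOpen O → O ⊆ ball 0 1 → O.Nonempty → ∀ w : X,
    ∃ (p : ℕ → E) (R : ℕ → E ≃L[ℝ] E) (S : ℕ → W ≃L[ℝ] W) (u : ℕ → X) (n : ℕ → ℕ)
      (A : ℕ → E ≃L[ℝ] E) (L : ℕ → W ≃L[ℝ] W) (w' : ℕ → X), (∀ i, p i ∈ O) ∧
      (∀ i, BC v (p i) (R i) (S i) (u i)) ∧ (∀ i, Ch St (u i) (n i) (A i) (L i) (w' i)) ∧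
      Tendsto n atTop atTop ∧ TendstoUniformlyOn (fun i => N (w' i)) (N w) atTop (ball 0 1)

variable {k0 : ℕ} {E W X : Type*} [NormedAddCommGroup E] [NormedSpace ℝ E] [NormedAddCommGroup W]
  [NormedSpace ℝ W]

namespace ZDk

/-- the forms which make `N` smooth on the open piece `O` of the disc of `v` -/
def SmO (D : ZDk k0 E W X) (v : X) (O : Set E) : Submodule ℝ W where
  carrier := {s | ContDiffOn ℝ ∞ (fun x => D.N v x s) O}
  add_mem' := by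
    intro a b ha hb
    have h := ContDiffOn.add ha hb
    refine h.congr (fun x hx => ?_)
    simp
  zero_mem' := by
    show ContDiffOn ℝ ∞ (fun x => D.N v x 0) O
    simp only [map_zero]
    exact contDiffOn_const
  smul_mem' := by
    intro c a ha
    have h := ContDiffOn.const_smul c ha
    refine h.congr (fun x hx => ?_)
    simp

/-- **the S-bundle** -/
def Sm (D : ZDk k0 E W X) (v : X) : Submodule ℝ W := D.SmO v (ball 0 1)

theorem mem_SmO {D : ZDk k0 E W X} {v : X} {O : Set E} {s : W} :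
    s ∈ D.SmO v O ↔ ContDiffOn ℝ ∞ (fun x => D.N v x s) O := Iff.rfl

theorem SmO_mono {D : ZDk k0 E W X} {v : X} {O O' : Set E} (h : O ⊆ O') : D.SmO v O' ≤ D.SmO v O :=
  fun s hs => ContDiffOn.mono hs h

/-- the case `k0 = 3` -/
def ofZD (D : ZD E W X) : ZDk 3 E W X where
  N := D.N
  K := D.K
  bd := D.bd
  cont := D.cont
  lam := D.lam
  lam0 := D.lam0
  lam1 := D.lam1
  Lam := D.Lam
  Lam1 := D.Lam1
  k0_pos := by norm_num
  gap := D.gap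
  mu := D.mu
  mu1 := D.mu1
  M := D.M
  St := D.St
  St_A := D.St_A
  St_A' := D.St_A'
  St_L := D.St_L
  St_L' := D.St_L'
  St_N := D.St_N
  St_next := D.St_next
  St_prev := D.St_prev
  BC := D.BC
  Kb := D.Kb
  Kb1 := D.Kb1
  BC_p := D.BC_p
  BC_R := D.BC_R
  BC_S := D.BC_S
  BC_N := D.BC_N
  BC_ex := D.BC_ex
  cpt := D.cpt
  dense := D.dense

end ZDk

end Vale.Agent.P207.H686
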